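import Vale.Agent.P092.H596.N.Njw
import Vale.Agent.P092.H890.W0Fin

/-!
P092, TEAM N (helper596), block [N-W0]: `W0Stmt` over every local field.
-/

set_option linter.all false

open MeasureTheory

namespace Vale.Agent.P092.H596.N

/-- **[N-W0].** -/
theorem w0Stmt {k : Type} [NontriviallyNormedField k] [ProperSpace k] [MeasurableSpace k]
    [BorelSpace k] {μ : Measure k} [IsFiniteMeasureOnCompacts μ] [μ.IsOpenPosMeasure]
    (hk : H933.LocK k) : SN.W0Stmt k μ :=
  H890.W0F.w0Stmt_of (njwStmt hk)

end Vale.Agent.P092.H596.N
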