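import Vale.Agent.P092.H596.N.CapN
import Vale.Agent.P092.SN.Defs

/-!
P092, TEAM N (helper596), block [N-W0]: **capacity** in the letters of `SN/Defs`: `q : Γ → SL_n(k)`
any function, `Z R` uniformly discrete.
-/

set_option linter.all false

open scoped LinearAlgebra.Projectivization InnerProductSpace
open Matrix Topology

namespace Vale.Agent.P092.H596.N

open Vale.Agent.P092.H820
open Vale.Agent.P092.H87.N
open Vale.Agent.P092.RC (GG YY ct)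
open Vale.Agent.P092.SN (nm NW Att NWA UD CY inc NInc act)

section base

variable {k : Type} [NontriviallyNormedField k] {N : ℕ}

theorem nm_pos (g : GG k N) : 0 < nm g := by
  obtain ⟨i, j, e, hp⟩ := exists_pivn g
  have e' : nm g = nmn g := rfl
  rw [e', ← e]
  refine norm_pos_iff.2 fun h0 => ?_
  have h3 : g.1 = 0 := by
    ext a b
    have := hp a b
    rw [h0, norm_zero] at this
    exact norm_le_zero_iff.1 this
  have h4 := g.2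
  rw [h3, Matrix.det_zero] at h4
  exact zero_ne_one h4

theorem nm_mul (g h : GG k N) : nm (g * h) ≤ (N + 1) * (nm g * nm h) := by
  have h0 : 0 ≤ nm g * nm h := mul_nonneg (norm_nonneg _) (norm_nonneg _)
  refine nmn_le (by positivity) fun a b => ?_
  change ‖∑ j, g.1 a j * h.1 j b‖ ≤ _
  refine (norm_sum_le _ _).trans ?_
  refine (Finset.sum_le_sum fun j _ => ?_ : _ ≤ ∑ _j : Fin (N + 1), nm g * nm h).trans
    (le_of_eq ?_)
  · rw [norm_mul]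
    exact mul_le_mul (entry_le g _ _) (entry_le h _ _) (norm_nonneg _) (norm_nonneg _)
  · rw [Finset.sum_const, Finset.card_univ, Fintype.card_fin, nsmul_eq_mul]
    push_cast
    ring

theorem act_apply (g : GG k N) (f : CY k N) (x : YY k N) : act g⁻¹ f x = f (g • x) := by
  change f ((g⁻¹)⁻¹ • x) = _
  rw [inv_inv]

theorem ct_eq (g : GG k N) : ct g = taun g := rfl

end base

section cap

variable {k : Type} [NontriviallyNormedField k] [ProperSpace k] {N : ℕ} {Γ : Type}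

/-- a bounded number of near-wall elements in one cell -/
theorem cell_card_u {q : Γ → GG k N} {Z : Set Γ} (hud : UD q Z) {C D : ℝ} (hC : 1 ≤ C)
    (hD : 1 ≤ D) : ∃ M : ℕ, ∀ (a b : ℝ) (i j : Fin (N + 1)) (y : Fin (N + 1) → k)
      (S : Finset Γ), ‖y‖ = 1 → (∀ γ ∈ S, γ ∈ Z ∧ NWn C a b (q γ).1 ((q γ)⁻¹).1 i j ∧
        ‖wd y (yy (q γ).1 i j)‖ ≤ D / (a * b)) → S.card ≤ M := by
  obtain ⟨M, hM⟩ := hud (3 * cn (Fin (N + 1)) * C ^ 2 * (3 * D))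
  refine ⟨M, fun a b i j y S hy hS => hM S (fun γ hγ => (hS γ hγ).1) fun γ hγ γ' hγ' => ?_⟩
  have h0 := hS γ hγ
  have h1 := hS γ' hγ'
  have hn := cn_nonneg (ι := Fin (N + 1))
  refine nmn_le (by positivity) fun x z => ?_
  have h2 := wd_trans_n hy h1.2.1.yy_norm.le h0.2.1.yy_norm.le h1.2.2 h0.2.2
  refine H87.N.cap h0.2.1 h1.2.1 (by linarith) ((yy_sub_le h0.2.1 h1.2.1).trans ?_) x z
  rw [mul_div_assoc]
  exact h2

/-- the near-wall data of one element, at its own size -/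
theorem nwn_own (hN : 0 < N) {R : ℝ} {g : GG k N} (h : NW R g) {i j : Fin (N + 1)}
    (hp : ∀ a b, ‖g.1 a b‖ ≤ ‖g.1 i j‖) {s : ℝ} (h1 : Real.exp s ≤ nm g)
    (h2 : nm g ≤ Real.exp (s + 1)) :
    NWn (KR N R) (Real.exp s) (Real.exp (s / N)) g.1 (g⁻¹).1 i j :=
  nwn_sh (by rw [Fintype.card_fin]) hN h1 h2 h hp

/-- **Capacity of one shell.** -/
theorem shell_u (hN : 0 < N) {q : Γ → GG k N} {Z : ℝ → Set Γ} (hud : ∀ R, UD q (Z R))
    {A B : Set (YY k N)} (hA : IsClosed A) (hB : IsClosed B) (h : NInc A B) :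
    ∃ T₀ : ℝ, 0 < T₀ ∧ ∀ T ≥ T₀, ∀ R : ℝ, ∃ M : ℕ, ∀ (s : ℝ) (i j : Fin (N + 1)) (x : YY k N)
      (S : Finset Γ), (∀ γ ∈ S, γ ∈ NWA q Z R T A ∧
        Real.exp s ≤ nm (q γ) ∧ nm (q γ) ≤ Real.exp (s + 1) ∧
        (∀ a b, ‖(q γ).1 a b‖ ≤ ‖(q γ).1 i j‖) ∧ ct (q γ) • x ∈ B) → S.card ≤ M := by
  obtain ⟨V, hV, hAV, hVB⟩ := exists_room hA hB h
  obtain ⟨T₀, hT₀, hatt⟩ := att_xp_n hA hV hAV
  refine ⟨T₀, hT₀, fun T hT R => ?_⟩
  obtain ⟨D, hD, hdisc⟩ := geo_disc (U := closure V) (A := B) isClosed_closure hB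
    (fun u l hu hl h1 h2 h3 => hVB _ h1 _ h2 ((incn_iff ⟨u, hu⟩ ⟨l, hl⟩).2 h3)) (KR N R)
  obtain ⟨M, hM⟩ := cell_card_u (hud R) (one_le_KR N R) hD
  refine ⟨M, fun s i j x S hS => ?_⟩
  obtain ⟨⟨v, hv⟩, rfl⟩ := pj_surj x
  obtain ⟨c, hc, hcv⟩ := exists_norm_one v hv
  have hcv0 : c • v ≠ 0 := smul_ne_zero hc hv
  have ex : pj k (Fin (N + 1)) ⟨v, hv⟩ = cl (c • v) hcv0 := (cl_smul hv hc).symm
  refine hM (Real.exp s) (Real.exp (s / N)) i j (c • v) S hcv fun γ hγ => ?_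
  obtain ⟨⟨h0, h1, h2⟩, h3, h4, h5, h6⟩ := hS γ hγ
  have H := nwn_own hN h1 h5 h3 h4
  refine ⟨h0, H, ?_⟩
  rw [ex] at h6
  obtain ⟨l, hl, e1, e2, e3⟩ := taun_line (q γ) (c • v) hcv0
  have h6' : cl l hl ∈ B := by rw [← e1]; exact h6
  have h7 := hdisc _ _ _ _ i j H (subset_closure (hatt T hT _ _ _ _ i j H h2)) (c • v) hcv0
    (by
      have e4 : cl ((c • v) ᵥ* ((q γ)⁻¹).1) (vecMul_ne' H hcv0) = cl l hl := by
        subst e3
        rfl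
      rw [e4]
      exact h6')
  rwa [hcv, mul_one] at h7

/-- the small elements -/
theorem small_u (hN : 0 < N) {q : Γ → GG k N} {Z : ℝ → Set Γ} (hud : ∀ R, UD q (Z R)) (R : ℝ) :
    ∃ M : ℕ, ∀ S : Finset Γ, (∀ γ ∈ S, γ ∈ Z R ∧ NW R (q γ) ∧ nm (q γ) ≤ 1) → S.card ≤ M := by
  obtain ⟨M, hM⟩ := hud R ((N + 1) * (1 * (1 + |R|)))
  refine ⟨M, fun S hS => hM S (fun γ hγ => (hS γ hγ).1) fun γ hγ γ' hγ' => ?_⟩
  refine (nm_mul _ _).trans ?_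
  have h1 : nm (q γ)⁻¹ ≤ 1 + |R| := by
    have h2 : nm (q γ)⁻¹ ^ N ≤ |R| := by
      have h3 : nm (q γ)⁻¹ ^ N ≤ R * nm (q γ) := (hS γ hγ).2.1
      calc nm (q γ)⁻¹ ^ N ≤ R * nm (q γ) := h3
        _ ≤ |R| * 1 := mul_le_mul (le_abs_self R) (hS γ hγ).2.2 (norm_nonneg _) (abs_nonneg _)
        _ = |R| := mul_one _
    have h4 : nm (q γ)⁻¹ ^ N ≤ (1 + |R|) ^ N := by
      refine h2.trans ?_
      have h5 : (1 : ℝ) ≤ 1 + |R| := by linarith [abs_nonneg R]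
      calc |R| ≤ 1 + |R| := by linarith
        _ ≤ (1 + |R|) ^ N := le_self_pow₀ h5 hN.ne'
    exact le_of_pow_le_pow_left₀ hN.ne' (by positivity) h4
  have h0 : 0 ≤ nm (q γ)⁻¹ := norm_nonneg _
  have h6 := (hS γ' hγ').2.2
  have h7 : 0 ≤ nm (q γ') := norm_nonneg _
  have := abs_nonneg R
  gcongr

/-- **Capacity.** -/
theorem cap_u (hN : 0 < N) {q : Γ → GG k N} {Z : ℝ → Set Γ} (hud : ∀ R, UD q (Z R))
    {A B : Set (YY k N)} (hA : IsClosed A) (hB : IsClosed B) (h : NInc A B) :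
    ∃ T₀ : ℝ, 0 < T₀ ∧ ∀ T ≥ T₀, ∀ R : ℝ, ∃ M : ℕ, ∀ (J : ℝ) (x : YY k N) (S : Finset Γ), 0 ≤ J →
      (∀ γ ∈ S, γ ∈ NWA q Z R T A ∧ Real.log (nm (q γ)) ≤ J ∧ ct (q γ) • x ∈ B) →
        (S.card : ℝ) ≤ M * (1 + J) := by
  classical
  obtain ⟨T₀, hT₀, hsh⟩ := shell_u hN hud hA hB h
  refine ⟨T₀, hT₀, fun T hT R => ?_⟩
  obtain ⟨M, hM⟩ := hsh T hT R
  obtain ⟨M', hM'⟩ := small_u hN hud R
  obtain ⟨P, hP⟩ : ∃ P : ℕ, P = Fintype.card (Fin (N + 1) × Fin (N + 1)) := ⟨_, rfl⟩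
  refine ⟨M' + P * M, fun J x S hJ hS => ?_⟩
  have hcell : ∀ (s : ℕ) (p : Fin (N + 1) × Fin (N + 1)),
      (S.filter fun γ => Real.exp s ≤ nm (q γ) ∧ nm (q γ) ≤ Real.exp (s + 1) ∧
        ∀ a b, ‖(q γ).1 a b‖ ≤ ‖(q γ).1 p.1 p.2‖).card ≤ M := by
    intro s p
    refine hM s p.1 p.2 x _ fun γ hγ => ?_
    obtain ⟨h1, h2, h3, h4⟩ := Finset.mem_filter.1 hγ
    obtain ⟨h5, h6, h7⟩ := hS γ h1
    exact ⟨h5, h2, h3, h4, h7⟩
  have hsm : (S.filter fun γ => nm (q γ) ≤ 1).card ≤ M' := by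
    refine hM' _ fun γ hγ => ?_
    obtain ⟨h1, h2⟩ := Finset.mem_filter.1 hγ
    obtain ⟨⟨h5, h6, h7⟩, -⟩ := hS γ h1
    exact ⟨h5, h6, h2⟩
  have hcov : S ⊆ (S.filter fun γ => nm (q γ) ≤ 1) ∪
      (Finset.range (⌊J⌋₊ + 1)).biUnion fun s =>
      (Finset.univ : Finset (Fin (N + 1) × Fin (N + 1))).biUnion fun p =>
        S.filter fun γ => Real.exp s ≤ nm (q γ) ∧ nm (q γ) ≤ Real.exp (s + 1) ∧
          ∀ a b, ‖(q γ).1 a b‖ ≤ ‖(q γ).1 p.1 p.2‖ := by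
    intro γ hγ
    rw [Finset.mem_union]
    by_cases h1 : nm (q γ) ≤ 1
    · left
      exact Finset.mem_filter.2 ⟨hγ, h1⟩
    · right
      rw [not_le] at h1
      have h0 : 0 < nm (q γ) := by linarith
      have hl : 0 ≤ Real.log (nm (q γ)) := Real.log_nonneg h1.le
      obtain ⟨i, j, -, hp⟩ := exists_pivn (q γ)
      have h2 : Real.log (nm (q γ)) ≤ J := (hS γ hγ).2.1
      refine Finset.mem_biUnion.2 ⟨⌊Real.log (nm (q γ))⌋₊, ?_, Finset.mem_biUnion.2 ⟨(i, j),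
        Finset.mem_univ _, Finset.mem_filter.2 ⟨hγ, ?_, ?_, hp⟩⟩⟩
      · rw [Finset.mem_range, Nat.lt_succ_iff]
        exact Nat.floor_le_floor h2
      · rw [← Real.le_log_iff_exp_le h0]
        exact Nat.floor_le hl
      · rw [← Real.log_le_iff_le_exp h0]
        exact (Nat.lt_floor_add_one _).le
  have h7 : ((Finset.range (⌊J⌋₊ + 1)).biUnion fun s =>
      (Finset.univ : Finset (Fin (N + 1) × Fin (N + 1))).biUnion fun p =>
        S.filter fun γ => Real.exp s ≤ nm (q γ) ∧ nm (q γ) ≤ Real.exp (s + 1) ∧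
          ∀ a b, ‖(q γ).1 a b‖ ≤ ‖(q γ).1 p.1 p.2‖).card ≤ (⌊J⌋₊ + 1) * (P * M) := by
    refine Finset.card_biUnion_le.trans ?_
    refine (Finset.sum_le_card_nsmul _ _ (P * M) fun s _ => ?_).trans (by
      rw [Finset.card_range, smul_eq_mul])
    refine Finset.card_biUnion_le.trans ?_
    refine (Finset.sum_le_card_nsmul _ _ M fun p _ => hcell s p).trans ?_
    rw [smul_eq_mul, Finset.card_univ, hP]
  have h8 : S.card ≤ M' + (⌊J⌋₊ + 1) * (P * M) :=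
    (Finset.card_le_card hcov).trans ((Finset.card_union_le _ _).trans (add_le_add hsm h7))
  have h9 : (S.card : ℝ) ≤ M' + (⌊J⌋₊ + 1) * (P * M) := by exact_mod_cast h8
  have h10 : (⌊J⌋₊ : ℝ) ≤ J := Nat.floor_le hJ
  have h11 : (0 : ℝ) ≤ M' := Nat.cast_nonneg _
  have h12 : (0 : ℝ) ≤ P * M := by positivity
  push_cast
  nlinarith

variable {K : Type} [NormedAddCommGroup K] [InnerProductSpace ℂ K] [CompleteSpace K]

/-- **Capacity, operator form.** -/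
theorem cap_op_u (hN : 0 < N) {q : Γ → GG k N} {Z : ℝ → Set Γ} (hud : ∀ R, UD q (Z R))
    {A : Set (YY k N)} {f : CY k N} (h : NInc (closure A) (tsupport f)) :
    ∃ T₀ : ℝ, 0 < T₀ ∧ ∀ T ≥ T₀, ∀ R : ℝ, ∃ C : ℝ, 0 ≤ C ∧ ∀ (J : ℝ) (S : Finset Γ), 0 ≤ J →
      (∀ γ ∈ S, γ ∈ NWA q Z R T A ∧ Real.log (nm (q γ)) ≤ J) →
      ∀ (β : CY k N →⋆ₐ[ℂ] (K →L[ℂ] K)) (ξ : K),
        ∑ γ ∈ S, ‖β (act (ct (q γ))⁻¹ f) ξ‖ ^ 2 ≤ C * (1 + J) * ‖ξ‖ ^ 2 := by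
  classical
  obtain ⟨T₀, hT₀, hcap⟩ := cap_u hN hud isClosed_closure
    (isClosed_tsupport (f : YY k N → ℂ)) h
  refine ⟨T₀, hT₀, fun T hT R => ?_⟩
  obtain ⟨M, hM⟩ := hcap T hT R
  refine ⟨M * ‖f‖ ^ 2, by positivity, fun J S hJ hS β ξ => ?_⟩
  refine H218.sum_sq_le β S (fun γ => act (ct (q γ))⁻¹ f) (by positivity) (fun x => ?_) ξ
  have hcard := hM J x (S.filter fun γ => ct (q γ) • x ∈ tsupport (f : YY k N → ℂ)) hJ
    fun γ hγ => by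
      obtain ⟨h1, h2⟩ := Finset.mem_filter.1 hγ
      obtain ⟨⟨a0, a1, ⟨v, φ, hv, hvA, hφ⟩⟩, a3⟩ := hS γ h1
      exact ⟨⟨a0, a1, ⟨v, φ, hv, subset_closure hvA, hφ⟩⟩, a3, h2⟩
  have hsum : ∑ γ ∈ S, ‖act (ct (q γ))⁻¹ f x‖ ^ 2 ≤
      ∑ γ ∈ S.filter (fun γ => ct (q γ) • x ∈ tsupport (f : YY k N → ℂ)), ‖f‖ ^ 2 := by
    rw [Finset.sum_filter]
    refine Finset.sum_le_sum fun γ hγ => ?_
    rw [act_apply]
    split_ifs with hc
    · exact pow_le_pow_left₀ (norm_nonneg _) (f.norm_coe_le_norm _) 2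
    · rw [image_eq_zero_of_notMem_tsupport hc, norm_zero, zero_pow two_ne_zero]
  refine hsum.trans ?_
  rw [Finset.sum_const, nsmul_eq_mul]
  calc _ ≤ (M * (1 + J) : ℝ) * ‖f‖ ^ 2 := by gcongr
    _ = _ := by ring

end cap

end Vale.Agent.P092.H596.N
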