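import Vale.Agent.P092.H87.NGeo3
import Vale.Agent.P092.H218.Loc

/-!
P092, TEAM N (helper596): **capacity**. For a fixed hyperplane `x` of the target space the number
of near-wall elements `γ` of type 1 with attracting point in `A`, size at most `exp J` and
`γ x ∈ B` (no point of `A` on a hyperplane of `B`) is `O(J)`; any `n ≥ 2`, any local field.
-/

set_option linter.all false

open scoped LinearAlgebra.Projectivization InnerProductSpace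
open Matrix Topology

namespace Vale.Agent.P092.H596.N

open Vale.Agent.P092.H820
open Vale.Agent.P092.H87.N

section room

variable {k : Type*} [NontriviallyNormedField k] {ι : Type*} [Fintype ι]

/-- incidence of points and hyperplanes -/
def incn (k : Type*) [Field k] (ι : Type*) [Fintype ι] :
    Set (ℙ k (ι → k) × ℙ k (ι → k)) := {p | Projectivization.orthogonal p.1 p.2}

theorem incn_iff (v w : {v : ι → k // v ≠ 0}) :
    (pj k ι v, pj k ι w) ∈ incn k ι ↔ v.1 ⬝ᵥ w.1 = 0 := Iff.rfl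

theorem incn_closed : IsClosed (incn k ι) := by
  have hq : IsOpenQuotientMap (Prod.map (pj k ι) (pj k ι)) := pj_oq.prodMap pj_oq
  rw [← hq.isQuotientMap.isClosed_preimage]
  have e : Prod.map (pj k ι) (pj k ι) ⁻¹' incn k ι =
      (fun p : {v : ι → k // v ≠ 0} × {v : ι → k // v ≠ 0} => p.1.1 ⬝ᵥ p.2.1) ⁻¹' {0} := by
    ext p
    exact incn_iff p.1 p.2
  rw [e]
  refine isClosed_singleton.preimage ?_
  exact (continuous_subtype_val.comp continuous_fst).dotProduct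
    (continuous_subtype_val.comp continuous_snd)

variable [ProperSpace k]

/-- room between two closed sets which are not incident -/
theorem exists_room {A B : Set (ℙ k (ι → k))} (hA : IsClosed A) (hB : IsClosed B)
    (h : ∀ x ∈ A, ∀ l ∈ B, (x, l) ∉ incn k ι) :
    ∃ V : Set (ℙ k (ι → k)), IsOpen V ∧ A ⊆ V ∧ ∀ x ∈ closure V, ∀ l ∈ B, (x, l) ∉ incn k ι := by
  have h1 : A ×ˢ B ⊆ (incn k ι)ᶜ := by
    rintro ⟨x, l⟩ ⟨hx, hl⟩
    exact h x hx l hl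
  obtain ⟨U, V, hU, hV, h2, h3, h4⟩ := generalized_tube_lemma hA.isCompact hB.isCompact
    incn_closed.isOpen_compl h1
  obtain ⟨W, hW, hAW, hWU⟩ := normal_exists_closure_subset hA hU h2
  exact ⟨W, hW, hAW, fun x hx l hl => h4 (Set.mk_mem_prod (hWU hx) (h3 hl))⟩

end room

section cap

variable {k : Type*} [NontriviallyNormedField k] [ProperSpace k] {ι : Type*} [Fintype ι]
  [DecidableEq ι] {Γ : Type*} [Group Γ]

/-- **Capacity of one shell.** -/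
theorem shell_card {m : ℕ} (hm : Fintype.card ι = m + 1) (hm0 : 0 < m)
    (q : Γ →* SpecialLinearGroup ι k) (hfin : ∀ R : ℝ, {γ | nmn (q γ) ≤ R}.Finite)
    {A B : Set (ℙ k (ι → k))} (hA : IsClosed A) (hB : IsClosed B)
    (h : ∀ x ∈ A, ∀ l ∈ B, (x, l) ∉ incn k ι) :
    ∃ T₀ : ℝ, 0 < T₀ ∧ ∀ T ≥ T₀, ∀ R : ℝ, ∃ N : ℕ, ∀ (s : ℝ) (i j : ι) (x : ℙ k (ι → k))
      (S : Finset Γ), (∀ γ ∈ S, nmn (q γ)⁻¹ ^ m ≤ R * nmn (q γ) ∧ Attn T A (q γ) ∧
        Real.exp s ≤ nmn (q γ) ∧ nmn (q γ) ≤ Real.exp (s + 1) ∧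
        (∀ a b, ‖(q γ).1 a b‖ ≤ ‖(q γ).1 i j‖) ∧ taun (q γ) • x ∈ B) → S.card ≤ N := by
  obtain ⟨V, hV, hAV, hVB⟩ := exists_room hA hB h
  obtain ⟨T₀, hT₀, hatt⟩ := att_xp_n hA hV hAV
  refine ⟨T₀, hT₀, fun T hT R => ?_⟩
  obtain ⟨D, hD, hdisc⟩ := geo_disc (U := closure V) (A := B) isClosed_closure hB
    (fun u l hu hl h1 h2 h3 => hVB _ h1 _ h2 ((incn_iff ⟨u, hu⟩ ⟨l, hl⟩).2 h3)) (KR m R)
  obtain ⟨N, hN⟩ := cell_card_n q hfin (one_le_KR m R) hD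
  refine ⟨N, fun s i j x S hS => ?_⟩
  obtain ⟨⟨v, hv⟩, rfl⟩ := pj_surj x
  obtain ⟨c, hc, hcv⟩ := exists_norm_one v hv
  have hcv0 : c • v ≠ 0 := smul_ne_zero hc hv
  have ex : pj k ι ⟨v, hv⟩ = cl (c • v) hcv0 := (cl_smul hv hc).symm
  refine hN (Real.exp s) (Real.exp (s / m)) i j (c • v) S hcv fun γ hγ => ?_
  obtain ⟨h1, h2, h3, h4, h5, h6⟩ := hS γ hγ
  have H := nwn_sh hm hm0 h3 h4 h1 h5
  refine ⟨H, ?_⟩
  rw [ex] at h6
  obtain ⟨l, hl, e1, e2, e3⟩ := taun_line (q γ) (c • v) hcv0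
  rw [e1] at h6
  have h7 := hdisc _ _ _ _ i j H (subset_closure (hatt T hT _ _ _ _ i j H h2)) (c • v) hcv0
    (by
      have e4 : cl ((c • v) ᵥ* ((q γ)⁻¹).1) (vecMul_ne' H hcv0) = cl l hl := by
        subst e3
        rfl
      rw [e4]
      exact h6)
  rwa [hcv, mul_one] at h7

/-- **Capacity.** -/
theorem cap_n {m : ℕ} (hm : Fintype.card ι = m + 1) (hm0 : 0 < m)
    (q : Γ →* SpecialLinearGroup ι k) (hfin : ∀ R : ℝ, {γ | nmn (q γ) ≤ R}.Finite)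
    {A B : Set (ℙ k (ι → k))} (hA : IsClosed A) (hB : IsClosed B)
    (h : ∀ x ∈ A, ∀ l ∈ B, (x, l) ∉ incn k ι) :
    ∃ T₀ : ℝ, 0 < T₀ ∧ ∀ T ≥ T₀, ∀ R : ℝ, ∃ N : ℕ, ∀ (J : ℕ) (x : ℙ k (ι → k)) (S : Finset Γ),
      (∀ γ ∈ S, nmn (q γ)⁻¹ ^ m ≤ R * nmn (q γ) ∧ Attn T A (q γ) ∧ nmn (q γ) ≤ Real.exp J ∧
        taun (q γ) • x ∈ B) → S.card ≤ N * (J + 1) := by
  classical
  have hne : Nonempty ι := Fintype.card_pos_iff.1 (by omega)
  obtain ⟨T₀, hT₀, hsh⟩ := shell_card hm hm0 q hfin hA hB h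
  refine ⟨T₀, hT₀, fun T hT R => ?_⟩
  obtain ⟨N, hN⟩ := hsh T hT R
  have hf := hfin 1
  refine ⟨hf.toFinset.card + Fintype.card (ι × ι) * N, fun J x S hS => ?_⟩
  have hcell : ∀ (s : ℕ) (p : ι × ι),
      (S.filter fun γ => Real.exp s ≤ nmn (q γ) ∧ nmn (q γ) ≤ Real.exp (s + 1) ∧
        ∀ a b, ‖(q γ).1 a b‖ ≤ ‖(q γ).1 p.1 p.2‖).card ≤ N := by
    intro s p
    refine hN s p.1 p.2 x _ fun γ hγ => ?_
    obtain ⟨h1, h2, h3, h4⟩ := Finset.mem_filter.1 hγ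
    obtain ⟨h5, h6, h7, h8⟩ := hS γ h1
    exact ⟨h5, h6, h2, h3, h4, h8⟩
  have hcov : S ⊆ hf.toFinset ∪ (Finset.range (J + 1)).biUnion fun s =>
      (Finset.univ : Finset (ι × ι)).biUnion fun p =>
        S.filter fun γ => Real.exp s ≤ nmn (q γ) ∧ nmn (q γ) ≤ Real.exp (s + 1) ∧
          ∀ a b, ‖(q γ).1 a b‖ ≤ ‖(q γ).1 p.1 p.2‖ := by
    intro γ hγ
    rw [Finset.mem_union]
    by_cases h1 : nmn (q γ) ≤ 1
    · left
      rw [Set.Finite.mem_toFinset]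
      exact h1
    · right
      rw [not_le] at h1
      have h0 : 0 < nmn (q γ) := by linarith
      have hl : 0 ≤ Real.log (nmn (q γ)) := Real.log_nonneg h1.le
      obtain ⟨i, j, -, hp⟩ := exists_pivn (q γ)
      have h2 : Real.log (nmn (q γ)) ≤ J := by
        rw [Real.log_le_iff_le_exp h0]
        exact (hS γ hγ).2.2.1
      refine Finset.mem_biUnion.2 ⟨⌊Real.log (nmn (q γ))⌋₊, ?_, Finset.mem_biUnion.2 ⟨(i, j),
        Finset.mem_univ _, Finset.mem_filter.2 ⟨hγ, ?_, ?_, hp⟩⟩⟩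
      · rw [Finset.mem_range, Nat.lt_succ_iff]
        exact Nat.floor_le_of_le h2
      · rw [← Real.le_log_iff_exp_le h0]
        exact Nat.floor_le hl
      · rw [← Real.log_le_iff_le_exp h0]
        exact (Nat.lt_floor_add_one _).le
  refine (Finset.card_le_card hcov).trans ((Finset.card_union_le _ _).trans ?_)
  have h7 : ((Finset.range (J + 1)).biUnion fun s =>
      (Finset.univ : Finset (ι × ι)).biUnion fun p =>
        S.filter fun γ => Real.exp s ≤ nmn (q γ) ∧ nmn (q γ) ≤ Real.exp (s + 1) ∧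
          ∀ a b, ‖(q γ).1 a b‖ ≤ ‖(q γ).1 p.1 p.2‖).card ≤
        (J + 1) * (Fintype.card (ι × ι) * N) := by
    refine Finset.card_biUnion_le.trans ?_
    refine (Finset.sum_le_card_nsmul _ _ (Fintype.card (ι × ι) * N) fun s _ => ?_).trans (by
      rw [Finset.card_range, smul_eq_mul])
    refine Finset.card_biUnion_le.trans ?_
    refine (Finset.sum_le_card_nsmul _ _ N fun p _ => hcell s p).trans ?_
    rw [smul_eq_mul, Finset.card_univ]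
  have h8 : hf.toFinset.card ≤ hf.toFinset.card * (J + 1) := Nat.le_mul_of_pos_right _ (by omega)
  calc _ ≤ hf.toFinset.card * (J + 1) + (J + 1) * (Fintype.card (ι × ι) * N) := add_le_add h8 h7
    _ = _ := by ring

variable {K : Type*} [NormedAddCommGroup K] [InnerProductSpace ℂ K] [CompleteSpace K]

/-- **Capacity, operator form**: for every calculus `β` of the hyperplanes. `F γ = f ∘ (τ γ)`. -/
theorem cap_op {m : ℕ} (hm : Fintype.card ι = m + 1) (hm0 : 0 < m)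
    (q : Γ →* SpecialLinearGroup ι k) (hfin : ∀ R : ℝ, {γ | nmn (q γ) ≤ R}.Finite)
    {A : Set (ℙ k (ι → k))} (f : C(ℙ k (ι → k), ℂ))
    (h : ∀ x ∈ closure A, ∀ l ∈ tsupport f, (x, l) ∉ incn k ι) :
    ∃ T₀ : ℝ, 0 < T₀ ∧ ∀ T ≥ T₀, ∀ R : ℝ, ∃ C : ℝ, 0 ≤ C ∧ ∀ (J : ℝ) (S : Finset Γ), 0 ≤ J →
      (∀ γ ∈ S, nmn (q γ)⁻¹ ^ m ≤ R * nmn (q γ) ∧ Attn T A (q γ) ∧ Real.log (nmn (q γ)) ≤ J) →
      ∀ (F : Γ → C(ℙ k (ι → k), ℂ)), (∀ γ ∈ S, ∀ x, F γ x = f (taun (q γ) • x)) →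
      ∀ (β : C(ℙ k (ι → k), ℂ) →⋆ₐ[ℂ] (K →L[ℂ] K)) (ξ : K),
        ∑ γ ∈ S, ‖β (F γ) ξ‖ ^ 2 ≤ C * (1 + J) * ‖ξ‖ ^ 2 := by
  classical
  obtain ⟨T₀, hT₀, hcap⟩ := cap_n hm hm0 q hfin isClosed_closure
    (isClosed_tsupport (f : ℙ k (ι → k) → ℂ)) h
  refine ⟨T₀, hT₀, fun T hT R => ?_⟩
  obtain ⟨N, hN⟩ := hcap T hT R
  refine ⟨2 * N * ‖f‖ ^ 2, by positivity, fun J S hJ hS F hF β ξ => ?_⟩
  have hne : Nonempty ι := Fintype.card_pos_iff.1 (by omega)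
  refine H218.sum_sq_le β S F (by positivity) (fun x => ?_) ξ
  have hcard := hN ⌈J⌉₊ x (S.filter fun γ => taun (q γ) • x ∈ tsupport f) fun γ hγ => by
    obtain ⟨h1, h2⟩ := Finset.mem_filter.1 hγ
    obtain ⟨a1, ⟨v, φ, hv, hvA, hφ⟩, a3⟩ := hS γ h1
    refine ⟨a1, ⟨v, φ, hv, subset_closure hvA, hφ⟩, ?_, h2⟩
    obtain ⟨i, j, e, hp⟩ := exists_pivn (q γ)
    have h0 : 0 < nmn (q γ) := by
      rw [← e]
      refine norm_pos_iff.2 fun h0 => ?_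
      have h3 : (q γ).1 = 0 := by
        ext a b
        have := hp a b
        rw [h0, norm_zero] at this
        exact norm_le_zero_iff.1 this
      have h4 := (q γ).2
      rw [h3, Matrix.det_zero] at h4
      exact zero_ne_one h4
    rw [Real.log_le_iff_le_exp h0] at a3
    exact a3.trans (Real.exp_le_exp.2 (Nat.le_ceil J))
  have hsum : ∑ γ ∈ S, ‖F γ x‖ ^ 2 ≤
      ∑ γ ∈ S.filter (fun γ => taun (q γ) • x ∈ tsupport f), ‖f‖ ^ 2 := by
    rw [Finset.sum_filter]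
    refine Finset.sum_le_sum fun γ hγ => ?_
    rw [hF γ hγ x]
    split_ifs with hc
    · exact pow_le_pow_left₀ (norm_nonneg _) (f.norm_coe_le_norm _) 2
    · rw [image_eq_zero_of_notMem_tsupport hc, norm_zero, zero_pow two_ne_zero]
  refine hsum.trans ?_
  rw [Finset.sum_const, nsmul_eq_mul]
  have h5 : ((S.filter fun γ => taun (q γ) • x ∈ tsupport f).card : ℝ) ≤ N * (⌈J⌉₊ + 1) := by
    exact_mod_cast hcard
  have h6 : (⌈J⌉₊ : ℝ) ≤ J + 1 := (Nat.ceil_lt_add_one hJ).le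
  calc _ ≤ (N * (⌈J⌉₊ + 1) : ℝ) * ‖f‖ ^ 2 := by gcongr
    _ ≤ (N * (2 * (1 + J))) * ‖f‖ ^ 2 := by gcongr; linarith
    _ = _ := by ring

end cap

end Vale.Agent.P092.H596.N
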