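import Vale.Agent.P092.H596.N.CapU

/-!
P092, TEAM N (helper596): the counting theorem for one leg `LegN`: if few near-wall elements of `Γ`
carry `B`, then `Ec (g y0) u * B = 0`.
-/

set_option linter.all false

open scoped InnerProductSpace ENNReal LinearAlgebra.Projectivization
open Filter Topology ContinuousLinearMap MeasureTheory TopologicalSpace

namespace Vale.Agent.P092.H596.N

open Vale.Agent.P092.SD (Ms UC)
open Vale.Agent.P092.RC (Cm TRN Moore GG PG YY y0 ct)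
open Vale.Agent.P092.SN
open Vale.Agent.P092.H790.CTA (ORBG SIZEG csm of_poly mul_zero_of_dom)
open Vale.Agent.P092.H790.CT (PicL)

section size

variable {k : Type} [NontriviallyNormedField k] {N : ℕ}

theorem tendsto_un {j : Fin (N + 1)} (hj : (0 : Fin (N + 1)) ≠ j) :
    Tendsto (fun s : k => un hj s) (𝓝 0) (𝓝 1) := by
  have h2 : Continuous fun c : k => (un hj c).1 := by
    unfold un
    simp only [Matrix.SpecialLinearGroup.transvection_coe]
    refine continuous_const.add ?_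
    refine continuous_pi fun a => continuous_pi fun b => ?_
    simp only [Matrix.single_apply]
    split_ifs
    · exact continuous_id
    · exact continuous_const
  have h3 : Continuous fun c : k => un hj c := continuous_induced_rng.2 h2
  have h4 : un hj (0 : k) = 1 := by
    unfold un
    rw [Matrix.SpecialLinearGroup.transvection_coeff_zero]
  have := h3.tendsto 0
  rwa [h4] at this

theorem ph_norm {Γ : Type} [Group Γ] {q : Γ → GG k N} (hq : PH q) (γ γ' : Γ) :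
    nm (q (γ * γ')) = nm (q γ * q γ') := by
  obtain ⟨c, hc⟩ := hq γ γ'
  have h1 : c ^ (N + 1) = 1 := by
    have h2 := (q (γ * γ')).2
    rw [hc, Matrix.det_smul, (q γ * q γ').2, mul_one, Fintype.card_fin] at h2
    exact h2
  have h3 : ‖c‖ = 1 := by
    have h4 : ‖c‖ ^ (N + 1) = 1 := by rw [← norm_pow, h1, norm_one]
    exact (pow_eq_one_iff_of_nonneg (norm_nonneg c) (Nat.succ_ne_zero N)).1 h4
  unfold nm
  have e : (fun i j => (q (γ * γ')).1 i j : Fin (N + 1) → Fin (N + 1) → k) =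
      c • (fun i j => (q γ * q γ').1 i j : Fin (N + 1) → Fin (N + 1) → k) := by
    rw [hc]
    rfl
  rw [e, norm_smul, h3, one_mul]

theorem ph_size {Γ : Type} [Group Γ] {q : Γ → GG k N} (hq : PH q) (γ : Γ) :
    ∃ d : ℝ, 1 ≤ d ∧ ∀ y, nm (q (γ * y)) ≤ d * nm (q y) := by
  refine ⟨max 1 ((N + 1) * nm (q γ)), le_max_left _ _, fun y => ?_⟩
  rw [ph_norm hq]
  refine (nm_mul _ _).trans ?_
  calc (N + 1) * (nm (q γ) * nm (q y)) = ((N + 1) * nm (q γ)) * nm (q y) := by ring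
    _ ≤ _ := mul_le_mul_of_nonneg_right (le_max_right _ _) (norm_nonneg _)

end size

variable {k : Type} [NontriviallyNormedField k] [ProperSpace k] [MeasurableSpace k] [BorelSpace k]
  {μ : Measure k} [IsFiniteMeasureOnCompacts μ] [μ.IsOpenPosMeasure] {N : ℕ} {E Γ K : Type}
  [Group E] [TopologicalSpace E] [Group Γ] [NormedAddCommGroup K] [InnerProductSpace ℂ K]
  [CompleteSpace K] {w : kˣ} {ι : GG k N →* E} {a a' : E →* PG k (N + 1)}
  {π : E →* (K →L[ℂ] K)} {lam : Γ →* (K →L[ℂ] K)} {W : Set (K →L[ℂ] K)} {Ω : K}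
  {m : Set Γ → (K →L[ℂ] K)} {q : Γ → GG k N} {Z : ℝ → Set Γ}
  {Ec F : YY k N → (CY k N →⋆ₐ[ℂ] (K →L[ℂ] K))}

/-- **The counting theorem for a leg.** -/
theorem emz (h : LegN μ w ι a a' π lam W Ω m q Z Ec F) {j : Fin (N + 1)}
    (hj : (0 : Fin (N + 1)) ≠ j) {g : GG k N} {B : K →L[ℂ] K} (hB : Cm W B)
    (hb : Commute B (π (ι (g * bw w * g⁻¹)))) (hn : ∀ s, Commute B (π (ι (g * un hj s * g⁻¹))))
    {A : Set (YY k N)} (hA : IsOpen A) {u : CY k N} (hu : tsupport u ⊆ A)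
    (hc : ∀ R : ℝ, ∃ T > 0, ∃ (C : ℝ) (d : ℕ), ∀ J : ℝ, 0 ≤ J → ∀ S : Finset Γ,
      (∀ γ ∈ S, γ ∈ NWA q Z R T A ∧ Real.log (nm (q γ)) ≤ J) →
        ∑ γ ∈ S, ‖adjoint B (lam γ Ω)‖ ^ 2 ≤ C * (1 + J) ^ d) :
    Ec (g • y0) u * B = 0 := by
  haveI := h.adm.tg
  obtain ⟨ρ, hρ0, hρ1, hORB⟩ := h.orb hj
  have hnc : Tendsto (fun s : k => ι (un hj s)) (𝓝 0) (𝓝 1) := by
    have h1 := (h.adm.cι.tendsto 1).comp (tendsto_un (k := k) hj)
    rwa [map_one] at h1
  have e1 : ∀ x : GG k N, ι (g * x * g⁻¹) = ι g * ι x * (ι g)⁻¹ := fun x => by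
    rw [map_mul, map_mul, map_inv]
  refine mul_zero_of_dom (μ := μ) (PicL.of_pic h.pic) h.ms h.uc hρ0.le hnc hORB (ph_size h.ph)
    h.size (g := ι g) (c := ‖u‖) hB (by rw [← e1]; exact hb) (fun s => by rw [← e1]; exact hn s)
    fun ζ ε hε => ?_
  obtain ⟨R, hR⟩ := h.e.dom g u A hA hu ζ ε hε
  obtain ⟨T, hT, C, d, hC⟩ := hc R
  refine ⟨NWA q Z R T A, ?_, ?_⟩
  · obtain ⟨η, hη, h'⟩ := of_poly (lam := lam) (Ω := Ω) hρ0 hρ1
      (sz := fun γ => nm (q γ)) (fun γ => nm_pos (q γ)) d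
    exact ⟨η, hη, h' B (NWA q Z R T A) C hC⟩
  · filter_upwards [hR T hT] with t ht
    rw [e1, map_pow] at ht
    exact ht

end Vale.Agent.P092.H596.N
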