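import Vale.Agent.P092.H596.N.CapU
import Vale.Agent.P092.H890.Dens
import Vale.Agent.P092.H890.W0Def
import Vale.Agent.P092.H437.Scale
import Vale.Agent.P092.H933.LocF

/-!
P092, TEAM N (helper596), block [N-W0]: the word count `NJWStmt` from the good families of
`H437/Scale` and the capacity of `H596/N/CapU`.
-/

set_option linter.all false

open scoped LinearAlgebra.Projectivization InnerProductSpace
open Matrix Topology

namespace Vale.Agent.P092.H596.N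

open Vale.Agent.P092.H820
open Vale.Agent.P092.H87.N
open Vale.Agent.P092.RC (GG YY ct)
open Vale.Agent.P092.SN (nm NW Att NWA UD CY inc NInc act)
open Vale.Agent.P092.H437 (Col Good Bas good_const)
open Vale.Agent.P092.H933 (LocK)

section words

variable {Y K : Type*} [TopologicalSpace Y] [CompactSpace Y]
  [NormedAddCommGroup K] [InnerProductSpace ℂ K] [CompleteSpace K] {ι : Type*}

/-- column bounds of words in good families -/
theorem words (s : Finset ι) (G : ι → C(Y, ℂ) → C(Y, ℂ)) {C : ℝ} (hC : 0 ≤ C) :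
    ∀ (L : List ((C(Y, ℂ) →⋆ₐ[ℂ] (K →L[ℂ] K)) × C(Y, ℂ))),
      (∀ p ∈ L, Good p.1 s (fun i => G i p.2) C) →
      ∀ (X : ι → (K →L[ℂ] K)) (N : ℝ), 0 ≤ N → Col s X N →
        Col s (fun i => X i * (L.map fun p => p.1 (G i p.2)).prod) (N * C ^ L.length) := by
  intro L
  induction L with
  | nil =>
    intro _ X N _ hX
    simpa using hX
  | cons p L ih =>
    intro hL X N hN hX
    have h1 := (hL p List.mem_cons_self).2 X N hN hX
    have h2 := ih (fun p' hp' => hL p' (List.mem_cons_of_mem _ hp')) _ _ (mul_nonneg hN hC) h1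
    simp only [List.map_cons, List.prod_cons, List.length_cons]
    have e : N * C ^ (L.length + 1) = N * C * C ^ L.length := by ring
    rw [e]
    intro η
    refine le_trans (le_of_eq (Finset.sum_congr rfl fun i _ => ?_)) (h2 η)
    simp only [mul_assoc]

/-- trivial bound of words -/
theorem word_norm (G : C(Y, ℂ) → C(Y, ℂ)) (hG : ∀ f, ‖G f‖ ≤ ‖f‖) :
    ∀ (L : List ((C(Y, ℂ) →⋆ₐ[ℂ] (K →L[ℂ] K)) × C(Y, ℂ))) (ξ : K),
      ‖(L.map fun p => p.1 (G p.2)).prod ξ‖ ≤ (L.map fun p => ‖p.2‖).prod * ‖ξ‖ := by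
  intro L
  induction L with
  | nil =>
    intro ξ
    simp
  | cons p L ih =>
    intro ξ
    simp only [List.map_cons, List.prod_cons]
    have h1 : ‖p.1 (G p.2)‖ ≤ ‖p.2‖ :=
      (NonUnitalStarAlgHom.norm_apply_le p.1 (G p.2)).trans (hG p.2)
    calc ‖(p.1 (G p.2)) ((L.map fun p => p.1 (G p.2)).prod ξ)‖
        ≤ ‖p.1 (G p.2)‖ * ‖(L.map fun p => p.1 (G p.2)).prod ξ‖ :=
          ContinuousLinearMap.le_opNorm _ _
      _ ≤ ‖p.2‖ * ((L.map fun p => ‖p.2‖).prod * ‖ξ‖) :=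
          mul_le_mul h1 (ih ξ) (norm_nonneg _) (norm_nonneg _)
      _ = _ := by ring

end words

section pg

variable {k : Type} [NontriviallyNormedField k] [ProperSpace k] {N : ℕ}

/-- polynomially good along the near-wall elements -/
def PGood (f : CY k N) : Prop := ∀ R : ℝ, ∃ (C : ℝ) (d : ℕ), 0 ≤ C ∧ ∀ {K : Type}
  [NormedAddCommGroup K] [InnerProductSpace ℂ K] [CompleteSpace K]
  (lam : CY k N →⋆ₐ[ℂ] (K →L[ℂ] K)) {Γ : Type} (g : Γ → GG k N) (J : ℝ) (s : Finset Γ), 0 ≤ J →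
  (∀ γ ∈ s, NW R (g γ) ∧ 1 ≤ nm (g γ) ∧ Real.log (nm (g γ)) ≤ J) →
  Good lam s (fun γ => act (ct (g γ))⁻¹ f) (C * (1 + J) ^ d)

theorem act_norm (g : GG k N) (f : CY k N) : ‖act g f‖ ≤ ‖f‖ :=
  (ContinuousMap.norm_le _ (norm_nonneg _)).2 fun _ => f.norm_coe_le_norm _

theorem act_add (g : GG k N) (f h : CY k N) : act g (f + h) = act g f + act g h :=
  ContinuousMap.ext fun _ => rfl

theorem act_mul (g : GG k N) (f h : CY k N) : act g (f * h) = act g f * act g h :=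
  ContinuousMap.ext fun _ => rfl

theorem act_alg (g : GG k N) (c : ℂ) :
    act g (algebraMap ℂ (CY k N) c) = algebraMap ℂ (CY k N) c :=
  ContinuousMap.ext fun _ => rfl

theorem pg_const (c : ℂ) : PGood (algebraMap ℂ (CY k N) c) := fun R =>
  ⟨‖algebraMap ℂ (CY k N) c‖, 0, norm_nonneg _, fun lam Γ g J s hJ hs => by
    rw [pow_zero, mul_one]
    exact (good_const (lam := lam) (s := s) (algebraMap ℂ (CY k N) c)).congr
      fun i _ => (act_alg _ _).symm⟩

theorem pg_add {f h : CY k N} (hf : PGood f) (hh : PGood h) : PGood (f + h) := by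
  intro R
  obtain ⟨C, d, hC, H⟩ := hf R
  obtain ⟨C', d', hC', H'⟩ := hh R
  refine ⟨C + C', max d d', add_nonneg hC hC', fun lam Γ g J s hJ hs => ?_⟩
  have e : ∀ i ∈ s, act (ct (g i))⁻¹ f + act (ct (g i))⁻¹ h = act (ct (g i))⁻¹ (f + h) :=
    fun i _ => (act_add _ _ _).symm
  refine H437.Good.congr (H437.Good.mono ((H lam g J s hJ hs).add (H' lam g J s hJ hs)) ?_) e
  have h1 : (1 : ℝ) ≤ 1 + J := by linarith
  have h2 : (1 + J) ^ d ≤ (1 + J) ^ max d d' := pow_le_pow_right₀ h1 (le_max_left _ _)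
  have h3 : (1 + J) ^ d' ≤ (1 + J) ^ max d d' := pow_le_pow_right₀ h1 (le_max_right _ _)
  rw [add_mul]
  gcongr

theorem pg_mul {f h : CY k N} (hf : PGood f) (hh : PGood h) : PGood (f * h) := by
  intro R
  obtain ⟨C, d, hC, H⟩ := hf R
  obtain ⟨C', d', hC', H'⟩ := hh R
  refine ⟨C * C', d + d', mul_nonneg hC hC', fun lam Γ g J s hJ hs => ?_⟩
  have e : ∀ i ∈ s, act (ct (g i))⁻¹ f * act (ct (g i))⁻¹ h = act (ct (g i))⁻¹ (f * h) :=
    fun i _ => (act_mul _ _ _).symm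
  refine H437.Good.congr (H437.Good.mono ((H lam g J s hJ hs).mul (H' lam g J s hJ hs)) (le_of_eq ?_)) e
  ring

/-- the polynomially good functions form an algebra -/
def pgAlg : Subalgebra ℂ (CY k N) where
  carrier := {f | PGood f}
  mul_mem' := pg_mul
  add_mem' := pg_add
  algebraMap_mem' := pg_const

/-- one letter bound for a finite list -/
theorem pg_list (R : ℝ) : ∀ (L : List (CY k N)), (∀ f ∈ L, PGood f) →
    ∃ (C : ℝ) (d : ℕ), 0 ≤ C ∧ ∀ f ∈ L, ∀ {K : Type}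
      [NormedAddCommGroup K] [InnerProductSpace ℂ K] [CompleteSpace K]
      (lam : CY k N →⋆ₐ[ℂ] (K →L[ℂ] K)) {Γ : Type} (g : Γ → GG k N) (J : ℝ) (s : Finset Γ),
      0 ≤ J → (∀ γ ∈ s, NW R (g γ) ∧ 1 ≤ nm (g γ) ∧ Real.log (nm (g γ)) ≤ J) →
      Good lam s (fun γ => act (ct (g γ))⁻¹ f) (C * (1 + J) ^ d) := by
  intro L
  induction L with
  | nil =>
    intro _
    exact ⟨0, 0, le_rfl, fun f hf => absurd hf List.not_mem_nil⟩
  | cons f L ih =>
    intro hL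
    obtain ⟨C, d, hC, H⟩ := hL f List.mem_cons_self R
    obtain ⟨C', d', hC', H'⟩ := ih fun f' hf' => hL f' (List.mem_cons_of_mem _ hf')
    refine ⟨C + C', max d d', add_nonneg hC hC', ?_⟩
    intro f' hf' K _ _ _ lam Γ g J s hJ hs
    have h1 : (1 : ℝ) ≤ 1 + J := by linarith
    have h2 : (1 + J) ^ d ≤ (1 + J) ^ max d d' := pow_le_pow_right₀ h1 (le_max_left _ _)
    have h3 : (1 + J) ^ d' ≤ (1 + J) ^ max d d' := pow_le_pow_right₀ h1 (le_max_right _ _)
    have h4 : 0 ≤ (1 + J) ^ max d d' := by positivity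
    rcases List.mem_cons.1 hf' with rfl | hm
    · refine H437.Good.mono (H lam g J s hJ hs) ?_
      calc C * (1 + J) ^ d ≤ C * (1 + J) ^ max d d' := mul_le_mul_of_nonneg_left h2 hC
        _ ≤ _ := by nlinarith
    · refine H437.Good.mono (H' f' hm lam g J s hJ hs) ?_
      calc C' * (1 + J) ^ d' ≤ C' * (1 + J) ^ max d d' := mul_le_mul_of_nonneg_left h3 hC'
        _ ≤ _ := by nlinarith

/-- **The word count**, for letters in the algebra of polynomially good functions. -/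
theorem njw_of_pg (hN : 0 < N) {Γ K : Type} [Group Γ] [NormedAddCommGroup K]
    [InnerProductSpace ℂ K] [CompleteSpace K] (q : Γ → GG k N) (Z : ℝ → Set Γ)
    (hud : ∀ R, UD q (Z R)) (lm : CY k N →⋆ₐ[ℂ] (K →L[ℂ] K))
    (L : List ((CY k N →⋆ₐ[ℂ] (K →L[ℂ] K)) × CY k N)) (hL : ∀ p ∈ L, PGood p.2)
    (R : ℝ) (A : Set (YY k N)) (h : CY k N) (hI : NInc (closure A) (tsupport h)) :
    ∃ T > 0, ∃ (C : ℝ) (d : ℕ), ∀ J : ℝ, 0 ≤ J → ∀ S : Finset Γ,
      (∀ γ ∈ S, γ ∈ NWA q Z R T A ∧ Real.log (nm (q γ)) ≤ J) → ∀ ξ : K,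
      ∑ γ ∈ S, ‖lm (act (ct (q γ)⁻¹) h) ((L.map fun p => p.1 (act (ct (q γ)⁻¹) p.2)).prod ξ)‖ ^ 2
        ≤ C * (1 + J) ^ d * ‖ξ‖ ^ 2 := by
  classical
  obtain ⟨T, hT, hcap⟩ := cap_op_u (K := K) hN hud hI
  obtain ⟨C₁, hC₁, hcap⟩ := hcap T le_rfl R
  obtain ⟨M, hM⟩ := small_u hN hud R
  obtain ⟨C₂, d, hC₂, hgood⟩ := pg_list R (L.map fun p => p.2) fun f hf => by
    obtain ⟨p, hp, rfl⟩ := List.mem_map.1 hf
    exact hL p hp
  set P : ℝ := (L.map fun p => ‖p.2‖).prod with hP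
  refine ⟨T, hT, M * (‖h‖ * P) ^ 2 + C₁ * (C₂ ^ L.length) ^ 2, 1 + 2 * (d * L.length),
    fun J hJ S hS ξ => ?_⟩
  have hct : ∀ γ, ct (q γ)⁻¹ = (ct (q γ))⁻¹ := fun γ => map_inv ct (q γ)
  simp only [hct]
  have h1J : (1 : ℝ) ≤ 1 + J := by linarith
  rw [← Finset.sum_filter_add_sum_filter_not S fun γ => nm (q γ) ≤ 1]
  -- the small elements
  have hsm : ∑ γ ∈ S.filter fun γ => nm (q γ) ≤ 1,
      ‖lm (act (ct (q γ))⁻¹ h) ((L.map fun p => p.1 (act (ct (q γ))⁻¹ p.2)).prod ξ)‖ ^ 2 ≤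
        M * (‖h‖ * P) ^ 2 * ‖ξ‖ ^ 2 := by
    have hcard : (S.filter fun γ => nm (q γ) ≤ 1).card ≤ M := hM _ fun γ hγ => by
      obtain ⟨h1, h2⟩ := Finset.mem_filter.1 hγ
      exact ⟨(hS γ h1).1.1, (hS γ h1).1.2.1, h2⟩
    calc _ ≤ ∑ γ ∈ S.filter fun γ => nm (q γ) ≤ 1, (‖h‖ * P * ‖ξ‖) ^ 2 := by
          refine Finset.sum_le_sum fun γ _ => pow_le_pow_left₀ (norm_nonneg _) ?_ 2
          have h1 : ‖lm (act (ct (q γ))⁻¹ h)‖ ≤ ‖h‖ :=
            (NonUnitalStarAlgHom.norm_apply_le lm _).trans (act_norm _ _)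
          have h2 := word_norm (K := K) (act (ct (q γ))⁻¹) (act_norm _) L ξ
          calc _ ≤ ‖lm (act (ct (q γ))⁻¹ h)‖ *
                ‖(L.map fun p => p.1 (act (ct (q γ))⁻¹ p.2)).prod ξ‖ :=
                ContinuousLinearMap.le_opNorm _ _
            _ ≤ ‖h‖ * (P * ‖ξ‖) := mul_le_mul h1 h2 (norm_nonneg _) (norm_nonneg _)
            _ = _ := by ring
      _ = (S.filter fun γ => nm (q γ) ≤ 1).card * (‖h‖ * P * ‖ξ‖) ^ 2 := by
          rw [Finset.sum_const, nsmul_eq_mul]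
      _ ≤ M * (‖h‖ * P * ‖ξ‖) ^ 2 := by
          refine mul_le_mul_of_nonneg_right ?_ (sq_nonneg _)
          exact_mod_cast hcard
      _ = _ := by ring
  -- the large elements
  set S' := S.filter fun γ => ¬ nm (q γ) ≤ 1 with hS'
  have hX : Col S' (fun γ => lm (act (ct (q γ))⁻¹ h)) (Real.sqrt (C₁ * (1 + J))) := by
    intro η
    rw [Real.sq_sqrt (by positivity)]
    exact hcap J S' hJ (fun γ hγ => hS γ (Finset.mem_filter.1 hγ).1) lm η
  have hL' : ∀ p ∈ L, Good p.1 S' (fun γ => act (ct (q γ))⁻¹ p.2) (C₂ * (1 + J) ^ d) := by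
    intro p hp
    refine hgood p.2 (List.mem_map.2 ⟨p, hp, rfl⟩) p.1 q J S' hJ fun γ hγ => ?_
    obtain ⟨h1, h2⟩ := Finset.mem_filter.1 hγ
    exact ⟨(hS γ h1).1.2.1, (not_le.1 h2).le, (hS γ h1).2⟩
  have hbig := words S' (fun γ f => act (ct (q γ))⁻¹ f) (C := C₂ * (1 + J) ^ d) (by positivity) L
    hL' _ _ (Real.sqrt_nonneg _) hX ξ
  have hbig' : ∑ γ ∈ S', ‖lm (act (ct (q γ))⁻¹ h)
      ((L.map fun p => p.1 (act (ct (q γ))⁻¹ p.2)).prod ξ)‖ ^ 2 ≤
        (C₁ * (C₂ ^ L.length) ^ 2) * (1 + J) ^ (1 + 2 * (d * L.length)) * ‖ξ‖ ^ 2 := by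
    refine le_trans (le_of_eq ?_) (hbig.trans (le_of_eq ?_))
    · rfl
    · rw [mul_pow, Real.sq_sqrt (by positivity)]
      ring
  have hpow : (1 : ℝ) ≤ (1 + J) ^ (1 + 2 * (d * L.length)) := one_le_pow₀ h1J
  have h0 : 0 ≤ (M : ℝ) * (‖h‖ * P) ^ 2 * ‖ξ‖ ^ 2 := by positivity
  refine (add_le_add hsm hbig').trans ?_
  nlinarith

/-- the basic functions are polynomially good -/
theorem pg_bas (hN : 0 < N) {f : CY k N} (hf : Bas f) : PGood f := by
  intro R
  obtain ⟨ϖ, h0, h1⟩ := NormedField.exists_norm_lt k (r := 1 / 4) (by norm_num)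
  obtain ⟨C, hC, hg⟩ := H437.good_nw hf h0 h1.le (8 * cn (Fin (N + 1)) ^ 2 * KR N R)
  refine ⟨2 * C, 1, by positivity, fun lam Γ g J s hJ hs => ?_⟩
  choose i j e hp using fun γ => exists_pivn (g γ)
  have key := hg lam s (fun γ => (ct (g γ)).1) (fun γ => yy (g γ).1 (i γ) (j γ))
    (fun γ => Real.exp (Real.log (nm (g γ)) / N))
    (fun γ => 1 / (Real.exp (Real.log (nm (g γ))) * Real.exp (Real.log (nm (g γ)) / N)))
    (fun γ => act (ct (g γ))⁻¹ f) ⌈2 * J⌉₊ fun γ hγ => ?_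
  · refine H437.Good.mono key ?_
    have h2 : (⌈2 * J⌉₊ : ℝ) ≤ 2 * J + 1 := (Nat.ceil_lt_add_one (by linarith)).le
    rw [pow_one]
    nlinarith
  · obtain ⟨h2, h3, h4⟩ := hs γ hγ
    have hp0 : 0 < nm (g γ) := nm_pos _
    have hex : Real.exp (Real.log (nm (g γ))) = nm (g γ) := Real.exp_log hp0
    have H := nwn_own hN h2 (hp γ) (s := Real.log (nm (g γ))) hex.le (by
      rw [Real.exp_add, hex]
      exact le_mul_of_one_le_right hp0.le (Real.one_le_exp zero_le_one))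
    have hl : 0 ≤ Real.log (nm (g γ)) := Real.log_nonneg h3
    have hN1 : (1 : ℝ) ≤ N := by exact_mod_cast hN
    have hlN : Real.log (nm (g γ)) / N ≤ Real.log (nm (g γ)) := div_le_self hl hN1
    have hlN0 : 0 ≤ Real.log (nm (g γ)) / N := by positivity
    have hvm : ∀ ν, (ct (g γ)).1 *ᵥ ν = ν ᵥ* ((g γ)⁻¹).1 := fun ν =>
      Matrix.mulVec_transpose _ _
    refine ⟨⟨j γ, H.yy_j⟩, H.yy_norm.le, Real.exp_pos _, ?_, ?_, fun ν => ?_, fun ν => ?_,
      fun v hv h => ?_⟩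
    · -- the radius is not too small
      rw [one_div, ← Real.exp_add, ← Real.exp_neg]
      have h5 : ‖ϖ‖ ^ ⌈2 * J⌉₊ ≤ (Real.exp (-1)) ^ ⌈2 * J⌉₊ := by
        refine pow_le_pow_left₀ (norm_nonneg _) (h1.le.trans ?_) _
        have := Real.exp_one_lt_d9
        rw [Real.exp_neg, one_div]
        exact inv_anti₀ (Real.exp_pos 1) (by linarith)
      refine h5.trans ?_
      rw [← Real.exp_nat_mul]
      apply Real.exp_le_exp.2
      have h6 : 2 * J ≤ (⌈2 * J⌉₊ : ℝ) := Nat.le_ceil _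
      linarith
    · rw [one_div]
      refine inv_le_one_of_one_le₀ ?_
      rw [← Real.exp_add]
      exact Real.one_le_exp (by linarith)
    · rw [hvm]
      exact H.le_vecMul_h ν
    · rw [hvm]
      refine (H.vecMul_h_le ν).trans ?_
      have hn := one_le_cn (ι := Fin (N + 1)) 0
      have hK : 0 ≤ KR N R := zero_le_one.trans (one_le_KR N R)
      have h5 : cn (Fin (N + 1)) ≤ 8 * cn (Fin (N + 1)) ^ 2 := by nlinarith
      have h6 : 0 ≤ ‖wd ν (yy (g γ).1 (i γ) (j γ))‖ + 1 / (Real.exp (Real.log (nm (g γ))) *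
        Real.exp (Real.log (nm (g γ)) / N)) * ‖ν‖ := by positivity
      have h7 := (Real.exp_pos (Real.log (nm (g γ)) / N)).le
      gcongr
    · rw [act_apply]
      rfl

end pg

/-- **[N-W0], the word count, over every local field.** -/
theorem njwStmt {k : Type} [NontriviallyNormedField k] [ProperSpace k] (hk : LocK k) :
    H890.W0F.NJWStmt k := by
  intro N hN
  have hN0 : 0 < N := by omega
  refine ⟨{f | PGood f}, ?_, fun q Z hud lm L hL R A h hI =>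
    njw_of_pg hN0 q Z hud lm L hL R A h hI⟩
  have hsub : ∀ s : Set (CY k N), s ⊆ {f | PGood f} →
      Dense (Algebra.adjoin ℂ s : Set (CY k N)) →
      closure (Submodule.span ℂ {f : CY k N | PGood f} : Set (CY k N)) = Set.univ := by
    intro s hs hd
    have h1 : (Algebra.adjoin ℂ s : Set (CY k N)) ⊆ {f | PGood f} := by
      have : Algebra.adjoin ℂ s ≤ pgAlg := Algebra.adjoin_le hs
      exact this
    exact (hd.mono (h1.trans Submodule.subset_span)).closure_eq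
  cases hk with
  | real φ hφ =>
    have hσ : ∀ x, ‖(Complex.ofRealHom.comp φ.toRingHom) x‖ = ‖x‖ := fun x => by
      rw [RingHom.comp_apply]
      exact (Complex.norm_real _).trans (hφ x)
    refine hsub _ ?_ (H890.dense_adjEE hσ)
    rintro f ⟨p, q, rfl⟩
    exact pg_bas hN0 (H437.bas_EE hσ p q)
  | cplx φ hφ =>
    have hσ : ∀ x, ‖φ.toRingHom x‖ = ‖x‖ := hφ
    refine hsub _ ?_ (H890.dense_adjEE hσ)
    rintro f ⟨p, q, rfl⟩
    exact pg_bas hN0 (H437.bas_EE hσ p q)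
  | ultra hu =>
    refine hsub {f | IsLocallyConstant f} ?_ ?_
    · intro f hf
      exact pg_bas hN0 (H437.bas_lc f hf)
    · exact H890.dense_lc.mono Algebra.subset_adjoin

end Vale.Agent.P092.H596.N
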